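import Vale.Agent.P047.Four.Data

/-!
The finite checks on the table `TQ` of 2550 bias polynomials of degree at most four.
A polynomial c0 + c1 p + ... + c4 p^4 with integer coefficients is stored as the natural number
(c0 + 256) + 512 (c1 + 256) + ... + 512^4 (c4 + 256).
-/

namespace Vale.Agent.P047.Four

/-- the keys with a given top digit -/
def grp (t : ℕ) : List ℕ := (groups.lookup t).getD []

/-- base 512 digits -/
def dg0 (x : ℕ) : ℕ := x % 512
def dg1 (x : ℕ) : ℕ := x / 512 % 512
def dg2 (x : ℕ) : ℕ := x / 262144 % 512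
def dg3 (x : ℕ) : ℕ := x / 134217728 % 512
def dg4 (x : ℕ) : ℕ := x / 68719476736

/-- a digit in the range 256 - 62 .. 256 + 62 -/
def okD (a : ℕ) : Bool := Nat.ble 194 a && Nat.ble a 318

/-- all digits in range -/
def okKey (x : ℕ) : Bool := okD (dg0 x) && okD (dg1 x) && okD (dg2 x) && okD (dg3 x) && okD (dg4 x)

/-- the check for a pair of keys with the same top digit: the combined polynomial
(1 - p) u + p v  is in the table, or it carries a vector which is nonpositive on v - u -/
def pairOK (x y : ℕ) : Bool :=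
  TQ.has (512 * y - 511 * x) ||
    (match TC.find (512 * y - 511 * x) with
      | some (a, b, c, e) =>
        decide (a * ((dg0 y : ℤ) - dg0 x) + b * ((dg1 y : ℤ) - dg1 x) + c * ((dg2 y : ℤ) - dg2 x)
          + e * ((dg3 y : ℤ) - dg3 x) ≤ 0)
      | none => false)

/-- the separating vector is positive on the derivative -/
def certOK (q : ℕ × ℤ × ℤ × ℤ × ℤ) : Bool :=
  decide (0 < q.2.1 * ((dg1 q.1 : ℤ) - 256) + 2 * q.2.2.1 * ((dg2 q.1 : ℤ) - 256)
    + 3 * q.2.2.2.1 * ((dg3 q.1 : ℤ) - 256) + 4 * q.2.2.2.2 * ((dg4 q.1 : ℤ) - 256))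

/-- all partners of `x` are fine -/
def rowOK (x : ℕ) : Bool := (grp (dg4 x)).all (fun y => pairOK x y)

/-- a hash with values 0 .. 47, used only to cut the pair check into pieces -/
def hsh (x : ℕ) : ℕ := (dg2 x % 12) * 4 + dg1 x % 4

/-- the part of the pair check with `hsh x = k` -/
def chkB (k : ℕ) : Bool := TQ.toList.all (fun x => (hsh x != k) || rowOK x)

def chkA : Bool := TQ.toList.all (fun x => okKey x && (grp (dg4 x)).elem x)
def chkC : Bool := TC.toList.all certOK
def chkL : Bool := TQ.toList.all (fun x => Nat.ble (4 * dg1 x + 4 * dg2 x + 3 * dg3 x + 2 * dg4 x) 3335)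

theorem chkA_true : chkA = true := by decide +kernel
theorem chkC_true : chkC = true := by decide +kernel
theorem chkL_true : chkL = true := by decide +kernel

end Vale.Agent.P047.Four
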