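import Vale.Agent.P047.Up.Infl

/-!
Level sums of the Fourier transform and their behaviour when one coordinate is fixed.
-/

namespace Vale.Agent.P047.Four

open Finset Vale.Agent.P047

variable {n : ℕ}

/-- fixing coordinate `i` to the value `b`; still regarded as a function on the same cube -/
def res (f : (Fin n → Bool) → ℝ) (i : Fin n) (b : Bool) : (Fin n → Bool) → ℝ :=
  fun x => f (Function.update x i b)

/-- the sum of the Fourier coefficients of level `k` -/
noncomputable def lev (f : (Fin n → Bool) → ℝ) (k : ℕ) : ℝ :=
  ∑ S ∈ powersetCard k (univ : Finset (Fin n)), fourier f S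

/-- the part of level `k` avoiding `i` -/
noncomputable def Anot (f : (Fin n → Bool) → ℝ) (i : Fin n) (k : ℕ) : ℝ :=
  ∑ S ∈ (powersetCard k (univ : Finset (Fin n))).filter (fun S => i ∉ S), fourier f S

/-- the part of level `k + 1` containing `i` -/
noncomputable def Ein (f : (Fin n → Bool) → ℝ) (i : Fin n) (k : ℕ) : ℝ :=
  ∑ S ∈ (powersetCard k (univ : Finset (Fin n))).filter (fun S => i ∉ S), fourier f (insert i S)

/-- the Fourier transform lives on subsets of `J` -/
def Supp (f : (Fin n → Bool) → ℝ) (J : Finset (Fin n)) : Prop :=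
  ∀ S : Finset (Fin n), ¬ S ⊆ J → fourier f S = 0

/-- degree at most four -/
def Deg4 (f : (Fin n → Bool) → ℝ) : Prop := ∀ S : Finset (Fin n), 4 < S.card → fourier f S = 0

/-- [F1] res f i b is invariant under the flip of coordinate i (Function.update_idem), so by `Up.fourier_flip`
(applied to res f i b) its coefficient at S equals minus itself. -/
theorem fourier_res_mem (f : (Fin n → Bool) → ℝ) (i : Fin n) (b : Bool) (S : Finset (Fin n))
    (h : i ∈ S) : fourier (res f i b) S = 0 := by
  have h1 := Up.fourier_flip (res f i b) i S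
  have h2 : (fun x => res f i b (Function.update x i (!x i))) = res f i b := by
    funext x
    unfold res
    rw [Function.update_idem]
  rw [h2, if_pos h] at h1
  linarith

/-- [F2] pointwise  res f i b x = (f x + f (flip x)) / 2 + sgn b * sgn (x i) * (f x - f (flip x)) / 2  where
flip x = update x i (not x i)  (cases on x i and b; Function.update_eq_self).  Also chi S x * sgn (x i) = chi (insert i S) x
(Finset.prod_insert).  Then use `Up.fourier_flip` at S (sign +1) and at insert i S (sign -1) and linearity of the sum.
Alternative: direct computation of the sum over x. -/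
theorem fourier_res_not_mem (f : (Fin n → Bool) → ℝ) (i : Fin n) (b : Bool) (S : Finset (Fin n))
    (h : i ∉ S) : fourier (res f i b) S = fourier f S + sgn b * fourier f (insert i S) := by
  have h1 := Up.fourier_flip f i S
  have h2 := Up.fourier_flip f i (insert i S)
  rw [if_neg h] at h1
  rw [if_pos (Finset.mem_insert_self i S)] at h2
  have hs : ∑ x : Fin n → Bool, res f i b x * chi S x =
      ((∑ x : Fin n → Bool, f x * chi S x) +
        (∑ x : Fin n → Bool, f (Function.update x i (!x i)) * chi S x)) / 2 +
      sgn b * ((∑ x : Fin n → Bool, f x * chi (insert i S) x) -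
        (∑ x : Fin n → Bool, f (Function.update x i (!x i)) * chi (insert i S) x)) / 2 := by
    rw [← Finset.sum_add_distrib, ← Finset.sum_sub_distrib, Finset.mul_sum, Finset.sum_div,
      Finset.sum_div, ← Finset.sum_add_distrib]
    refine Finset.sum_congr rfl fun x _ => ?_
    have hc : chi (insert i S) x = sgn (x i) * chi S x := by
      unfold chi
      rw [Finset.prod_insert h]
    rw [hc]
    unfold res
    cases hx : x i <;> cases b
    · have : Function.update x i false = x := by rw [← hx]; exact Function.update_eq_self i x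
      rw [this]; simp only [sgn]; simp; ring
    · simp only [sgn]; simp; ring
    · simp only [sgn]; simp; ring
    · have : Function.update x i true = x := by rw [← hx]; exact Function.update_eq_self i x
      rw [this]; simp only [sgn]; simp; ring
  have key : fourier (res f i b) S =
      (fourier f S + fourier (fun x => f (Function.update x i (!x i))) S) / 2 +
        sgn b * (fourier f (insert i S) -
          fourier (fun x => f (Function.update x i (!x i))) (insert i S)) / 2 := by
    unfold fourier
    rw [hs]
    ring
  rw [key, h1, h2]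
  ring

/-- [F3] trivial. -/
theorem isBoolean_res (f : (Fin n → Bool) → ℝ) (i : Fin n) (b : Bool) (hf : IsBoolean f) :
    IsBoolean (res f i b) := fun x => hf _

/-- [F4] by cases i in S: F1, or F2 with card (insert i S) > 4 as well. -/
theorem deg4_res (f : (Fin n → Bool) → ℝ) (i : Fin n) (b : Bool) (hf : Deg4 f) :
    Deg4 (res f i b) := by
  intro S hS
  by_cases hi : i ∈ S
  · exact fourier_res_mem f i b S hi
  · rw [fourier_res_not_mem f i b S hi, hf S hS,
      hf (insert i S) (lt_of_lt_of_le hS (Finset.card_le_card (Finset.subset_insert i S)))]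
    ring

/-- [F5] by cases i in S: F1; otherwise S is not inside J (else it would be inside J.erase i), nor is insert i S; F2. -/
theorem supp_res (f : (Fin n → Bool) → ℝ) (i : Fin n) (b : Bool) (J : Finset (Fin n))
    (hf : Supp f J) : Supp (res f i b) (J.erase i) := by
  intro S hS
  by_cases hi : i ∈ S
  · exact fourier_res_mem f i b S hi
  · rw [fourier_res_not_mem f i b S hi]
    have h1 : ¬ S ⊆ J := by
      intro h
      apply hS
      intro a ha
      refine Finset.mem_erase.mpr ⟨?_, h ha⟩
      rintro rfl
      exact hi ha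
    have h2 : ¬ insert i S ⊆ J := fun h => h1 ((Finset.subset_insert i S).trans h)
    rw [hf S h1, hf _ h2]
    ring

/-- [F6] split the sum by i in S (Finset.sum_filter_add_sum_filter_not); F1 kills one part, F2 gives the other
(Finset.sum_add_distrib, Finset.mul_sum). -/
theorem lev_res (f : (Fin n → Bool) → ℝ) (i : Fin n) (b : Bool) (k : ℕ) :
    lev (res f i b) k = Anot f i k + sgn b * Ein f i k := by
  unfold lev Anot Ein
  rw [← Finset.sum_filter_add_sum_filter_not (powersetCard k (univ : Finset (Fin n)))
    (fun S => i ∉ S)]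
  have h1 : ∑ S ∈ (powersetCard k (univ : Finset (Fin n))).filter (fun S => ¬ i ∉ S),
      fourier (res f i b) S = 0 := by
    apply Finset.sum_eq_zero
    intro S hS
    rw [Finset.mem_filter] at hS
    exact fourier_res_mem f i b S (not_not.mp hS.2)
  rw [h1, add_zero, Finset.mul_sum, ← Finset.sum_add_distrib]
  apply Finset.sum_congr rfl
  intro S hS
  rw [Finset.mem_filter] at hS
  exact fourier_res_not_mem f i b S hS.2

/-- [F7] S -> insert i S is a bijection from {card k, without i} to {card k + 1, with i}, inverse erase
(Finset.sum_bij' or sum_nbij'). -/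
theorem Ein_eq (f : (Fin n → Bool) → ℝ) (i : Fin n) (k : ℕ) :
    Ein f i k =
      ∑ T ∈ (powersetCard (k + 1) (univ : Finset (Fin n))).filter (fun T => i ∈ T), fourier f T := by
  unfold Ein
  refine Finset.sum_bij' (fun S _ => insert i S) (fun T _ => T.erase i) ?_ ?_ ?_ ?_ ?_
  · intro S hS
    rw [Finset.mem_filter, Finset.mem_powersetCard] at hS
    rw [Finset.mem_filter, Finset.mem_powersetCard]
    refine ⟨⟨Finset.subset_univ _, ?_⟩, Finset.mem_insert_self _ _⟩
    rw [Finset.card_insert_of_notMem hS.2, hS.1.2]
  · intro T hT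
    rw [Finset.mem_filter, Finset.mem_powersetCard] at hT
    rw [Finset.mem_filter, Finset.mem_powersetCard]
    refine ⟨⟨Finset.subset_univ _, ?_⟩, Finset.notMem_erase _ _⟩
    rw [Finset.card_erase_of_mem hT.2, hT.1.2]
    rfl
  · intro S hS
    rw [Finset.mem_filter] at hS
    exact Finset.erase_insert hS.2
  · intro T hT
    rw [Finset.mem_filter] at hT
    exact Finset.insert_erase hT.2
  · intro S _
    rfl

/-- [F8] split level k + 1 by i in T; `Ein_eq`. -/
theorem lev_succ (f : (Fin n → Bool) → ℝ) (i : Fin n) (k : ℕ) :
    lev f (k + 1) = Anot f i (k + 1) + Ein f i k := by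
  rw [Ein_eq]
  unfold lev Anot
  rw [← Finset.sum_filter_add_sum_filter_not (powersetCard (k + 1) (univ : Finset (Fin n)))
    (fun T : Finset (Fin n) => i ∈ T) (fourier f)]
  exact add_comm _ _

/-- [F9] powersetCard 0 = {empty}. -/
theorem lev_zero (f : (Fin n → Bool) → ℝ) : lev f 0 = fourier f ∅ := by
  unfold lev
  rw [Finset.powersetCard_zero, Finset.sum_singleton]

/-- [F10] powersetCard 0 = {empty}, and i is not in the empty set. -/
theorem Anot_zero (f : (Fin n → Bool) → ℝ) (i : Fin n) : Anot f i 0 = fourier f ∅ := by
  unfold Anot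
  rw [Finset.powersetCard_zero, Finset.filter_singleton, if_pos (Finset.notMem_empty i),
    Finset.sum_singleton]

/-- [F11] `Ein_eq`, write the filter as an if (Finset.sum_filter), Finset.sum_comm; the inner sum over i of
(if i in T then c else 0) is card T * c = (k + 1) * c. -/
theorem sum_Ein (f : (Fin n → Bool) → ℝ) (k : ℕ) :
    ∑ i, Ein f i k = ((k : ℝ) + 1) * lev f (k + 1) := by
  have h1 : ∀ i : Fin n, Ein f i k =
      ∑ T ∈ powersetCard (k + 1) (univ : Finset (Fin n)), if i ∈ T then fourier f T else 0 := by
    intro i
    rw [Ein_eq, Finset.sum_filter]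
  rw [Finset.sum_congr rfl (fun i _ => h1 i), Finset.sum_comm]
  unfold lev
  rw [Finset.mul_sum]
  apply Finset.sum_congr rfl
  intro T hT
  rw [Finset.mem_powersetCard] at hT
  rw [← Finset.sum_filter, Finset.sum_const, nsmul_eq_mul]
  have : (univ.filter (fun i => i ∈ T)) = T := by
    ext x; simp
  rw [this, hT.2]
  push_cast
  ring

/-- [F12] every term vanishes: insert i S is not inside J. -/
theorem Ein_eq_zero (f : (Fin n → Bool) → ℝ) (J : Finset (Fin n)) (hf : Supp f J) (i : Fin n)
    (hi : i ∉ J) (k : ℕ) : Ein f i k = 0 := by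
  unfold Ein
  apply Finset.sum_eq_zero
  intro S _
  apply hf
  intro h
  exact hi (h (Finset.mem_insert_self i S))

/-- [F13] `sum_Ein` and `Ein_eq_zero` (Finset.sum_subset). -/
theorem sum_Ein_J (f : (Fin n → Bool) → ℝ) (J : Finset (Fin n)) (hf : Supp f J) (k : ℕ) :
    ∑ i ∈ J, Ein f i k = ((k : ℝ) + 1) * lev f (k + 1) := by
  rw [← sum_Ein]
  apply Finset.sum_subset (Finset.subset_univ J)
  intro i _ hi
  exact Ein_eq_zero f J hf i hi k

/-- [F14] every term has card (insert i S) = 5. -/
theorem Ein_four (f : (Fin n → Bool) → ℝ) (hf : Deg4 f) (i : Fin n) : Ein f i 4 = 0 := by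
  unfold Ein
  apply Finset.sum_eq_zero
  intro S hS
  rw [Finset.mem_filter, Finset.mem_powersetCard] at hS
  apply hf
  rw [Finset.card_insert_of_notMem hS.2, hS.1.2]
  norm_num

/-- [F15] powersetCard 1 univ is the image of i -> {i}  (Finset.powersetCard_one, Finset.sum_map). -/
theorem lev_one (f : (Fin n → Bool) → ℝ) : lev f 1 = ∑ i, fourier f {i} := by
  unfold lev
  rw [Finset.powersetCard_one, Finset.sum_map]
  rfl

/-- [F16] unfold degree; Finset.le_sup. -/
theorem deg4_of_degree (f : (Fin n → Bool) → ℝ) (h : degree f ≤ 4) : Deg4 f := by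
  intro S hS
  by_contra hne
  have h1 : S.card ≤ degree f := by
    unfold degree
    exact Finset.le_sup (f := Finset.card) (Finset.mem_filter.2 ⟨Finset.mem_univ S, hne⟩)
  omega

/-- [F17] `Up.parseval`: only the empty set contributes (Finset.sum_eq_single), so (fourier f empty)^2 = 1. -/
theorem base_value (f : (Fin n → Bool) → ℝ) (hf : IsBoolean f) (hJ : Supp f ∅) :
    fourier f ∅ = 1 ∨ fourier f ∅ = -1 := by
  have h := Up.parseval f hf
  rw [Finset.sum_eq_single (∅ : Finset (Fin n))] at h
  · have h2 : (fourier f ∅ - 1) * (fourier f ∅ + 1) = 0 := by ring_nf; linarith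
    rcases mul_eq_zero.mp h2 with h3 | h3
    · left; linarith
    · right; linarith
  · intro S _ hS
    have : ¬ S ⊆ ∅ := by
      intro h
      exact hS (Finset.subset_empty.mp h)
    rw [hJ S this]
    norm_num
  · intro h
    exact absurd (Finset.mem_univ _) h

/-- [F18] all terms vanish: a set of card k > 0 is not inside the empty set. -/
theorem lev_pos_of_supp_empty (f : (Fin n → Bool) → ℝ) (hJ : Supp f ∅) (k : ℕ) (hk : 0 < k) :
    lev f k = 0 := by
  unfold lev
  apply Finset.sum_eq_zero
  intro S hS
  apply hJ
  intro h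
  have h0 : S = ∅ := Finset.subset_empty.mp h
  have h1 := (Finset.mem_powersetCard.mp hS).2
  rw [h0, Finset.card_empty] at h1
  omega

end Vale.Agent.P047.Four
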