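import Vale.Agent.P047.Four.Sound
import Vale.Agent.P047.Four.Fourier

/-!
Boolean functions of degree at most four have sum of linear Fourier coefficients at most 7/4.

For Boolean f put g = (1 + f) / 2 and psi(p) = E_p[g], the expectation under the p-biased product measure.
psi = c0 + c1 p + ... + c4 p^4 has integer coefficients, which are linear functions of the level sums of f (`Rep`), and
the sum of the linear coefficients of f is psi'(1/2).  Fixing a coordinate i gives  psi = (1 - p) u_i + p v_i  and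
psi' = sum_i (v_i - u_i).  The table `TQ` is closed under these two constraints together.
-/

namespace Vale.Agent.P047.Four

open Finset Vale.Agent.P047

variable {n : ℕ}

/-- the integers c0 .. c4 are the coefficients of the bias polynomial of `f` -/
def Rep (f : (Fin n → Bool) → ℝ) (c0 c1 c2 c3 c4 : ℤ) : Prop :=
  (c0 : ℝ) = (1 + lev f 0 - lev f 1 + lev f 2 - lev f 3 + lev f 4) / 2 ∧
  (c1 : ℝ) = lev f 1 - 2 * lev f 2 + 3 * lev f 3 - 4 * lev f 4 ∧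
  (c2 : ℝ) = 2 * lev f 2 - 6 * lev f 3 + 12 * lev f 4 ∧
  (c3 : ℝ) = 4 * lev f 3 - 16 * lev f 4 ∧
  (c4 : ℝ) = 8 * lev f 4

/-- [M1] Int.cast_injective. -/
theorem Rep_inj (f : (Fin n → Bool) → ℝ) (c0 c1 c2 c3 c4 e0 e1 e2 e3 e4 : ℤ)
    (h : Rep f c0 c1 c2 c3 c4) (h' : Rep f e0 e1 e2 e3 e4) :
    c0 = e0 ∧ c1 = e1 ∧ c2 = e2 ∧ c3 = e3 ∧ c4 = e4 := by
  obtain ⟨a0, a1, a2, a3, a4⟩ := h
  obtain ⟨b0, b1, b2, b3, b4⟩ := h'
  refine ⟨?_, ?_, ?_, ?_, ?_⟩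
  · exact_mod_cast a0.trans b0.symm
  · exact_mod_cast a1.trans b1.symm
  · exact_mod_cast a2.trans b2.symm
  · exact_mod_cast a3.trans b3.symm
  · exact_mod_cast a4.trans b4.symm

/-- [M2] one step: rewrite all level sums by `lev_res`, `lev_succ`, `lev_zero`, `Anot_zero`, `Ein_four`,
`sgn_true`, `sgn_false`; everything is linear (push_cast; linarith). -/
theorem Rep_step (f : (Fin n → Bool) → ℝ) (hf : Deg4 f) (i : Fin n)
    (u0 u1 u2 u3 u4 v0 v1 v2 v3 v4 : ℤ)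
    (hu : Rep (res f i false) u0 u1 u2 u3 u4) (hv : Rep (res f i true) v0 v1 v2 v3 v4) :
    Rep f u0 (u1 + v0 - u0) (u2 + v1 - u1) (u3 + v2 - u2) (u4 + v3 - u3) ∧ u4 = v4 ∧
      ((v0 - u0 : ℤ) : ℝ) = Ein f i 0 - Ein f i 1 + Ein f i 2 - Ein f i 3 ∧
      ((v1 - u1 : ℤ) : ℝ) = 2 * Ein f i 1 - 4 * Ein f i 2 + 6 * Ein f i 3 ∧
      ((v2 - u2 : ℤ) : ℝ) = 4 * Ein f i 2 - 12 * Ein f i 3 ∧
      ((v3 - u3 : ℤ) : ℝ) = 8 * Ein f i 3 := by
  obtain ⟨a0, a1, a2, a3, a4⟩ := hu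
  obtain ⟨b0, b1, b2, b3, b4⟩ := hv
  simp only [lev_res, sgn_true, sgn_false] at a0 a1 a2 a3 a4 b0 b1 b2 b3 b4
  have e4 : Ein f i 4 = 0 := Ein_four f hf i
  have l0 : lev f 0 = Anot f i 0 := by rw [lev_zero, Anot_zero]
  have l1 : lev f 1 = Anot f i 1 + Ein f i 0 := lev_succ f i 0
  have l2 : lev f 2 = Anot f i 2 + Ein f i 1 := lev_succ f i 1
  have l3 : lev f 3 = Anot f i 3 + Ein f i 2 := lev_succ f i 2
  have l4 : lev f 4 = Anot f i 4 + Ein f i 3 := lev_succ f i 3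
  rw [e4] at a0 a1 a2 a3 a4 b0 b1 b2 b3 b4
  have h44 : (u4 : ℝ) = (v4 : ℝ) := by rw [a4, b4]; ring
  refine ⟨⟨?_, ?_, ?_, ?_, ?_⟩, ?_, ?_, ?_, ?_, ?_⟩
  · rw [a0, l0, l1, l2, l3, l4]; ring
  · push_cast; rw [a1, b0, a0, l1, l2, l3, l4]; ring
  · push_cast; rw [a2, b1, a1, l2, l3, l4]; ring
  · push_cast; rw [a3, b2, a2, l3, l4]; ring
  · push_cast; rw [a4, b3, a3, l4]; ring
  · exact_mod_cast h44
  · push_cast; rw [b0, a0]; ring
  · push_cast; rw [b1, a1]; ring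
  · push_cast; rw [b2, a2]; ring
  · push_cast; rw [b3, a3]; ring

/-- [M3] base of the induction: `base_value`, `lev_zero`, `lev_pos_of_supp_empty`; the vector is (1,0,0,0,0) or (0,0,0,0,0). -/
theorem Rep_base (f : (Fin n → Bool) → ℝ) (hf : IsBoolean f) (hJ : Supp f ∅) :
    ∃ c0 c1 c2 c3 c4 : ℤ, InQ c0 c1 c2 c3 c4 ∧ Rep f c0 c1 c2 c3 c4 := by
  have l0 := lev_zero f
  have l1 := lev_pos_of_supp_empty f hJ 1 (by norm_num)
  have l2 := lev_pos_of_supp_empty f hJ 2 (by norm_num)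
  have l3 := lev_pos_of_supp_empty f hJ 3 (by norm_num)
  have l4 := lev_pos_of_supp_empty f hJ 4 (by norm_num)
  rcases base_value f hf hJ with h | h
  · refine ⟨1, 0, 0, 0, 0, InQ_one, ?_⟩
    unfold Rep
    rw [l0, l1, l2, l3, l4, h]
    norm_num
  · refine ⟨0, 0, 0, 0, 0, InQ_zero, ?_⟩
    unfold Rep
    rw [l0, l1, l2, l3, l4, h]
    norm_num

/-- [M4] the induction step. -/
theorem Rep_ind_step (f : (Fin n → Bool) → ℝ) (hd : Deg4 f) (J : Finset (Fin n))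
    (hJ : J.Nonempty) (hs : Supp f J)
    (ih : ∀ i ∈ J, ∀ b : Bool, ∃ c0 c1 c2 c3 c4 : ℤ, InQ c0 c1 c2 c3 c4 ∧ Rep (res f i b) c0 c1 c2 c3 c4) :
    ∃ c0 c1 c2 c3 c4 : ℤ, InQ c0 c1 c2 c3 c4 ∧ Rep f c0 c1 c2 c3 c4 := by
  classical
  choose! u0 u1 u2 u3 u4 hu using (fun i hi => ih i hi false)
  choose! v0 v1 v2 v3 v4 hv using (fun i hi => ih i hi true)
  obtain ⟨i0, hi0⟩ := hJ
  have hst := fun i (hi : i ∈ J) => Rep_step f hd i (u0 i) (u1 i) (u2 i) (u3 i) (u4 i)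
    (v0 i) (v1 i) (v2 i) (v3 i) (v4 i) (hu i hi).2 (hv i hi).2
  have hw := (hst i0 hi0).1
  have hinj := fun i (hi : i ∈ J) => Rep_inj f _ _ _ _ _ _ _ _ _ _ hw (hst i hi).1
  refine ⟨_, _, _, _, _, ?_, hw⟩
  obtain ⟨a0, a1, a2, a3, a4⟩ := hw
  have e0 := sum_Ein_J f J hs 0
  have e1 := sum_Ein_J f J hs 1
  have e2 := sum_Ein_J f J hs 2
  have e3 := sum_Ein_J f J hs 3
  norm_num at e0 e1 e2 e3
  refine core_step J ⟨i0, hi0⟩ _ _ _ _ _ u0 u1 u2 u3 u4 v0 v1 v2 v3 v4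
    (fun i hi => (hu i hi).1) (fun i hi => (hv i hi).1) (fun i hi => (hst i hi).2.1)
    (fun i hi => (hinj i hi).1) (fun i hi => (hinj i hi).2.1) (fun i hi => (hinj i hi).2.2.1)
    (fun i hi => (hinj i hi).2.2.2.1) (fun i hi => (hinj i hi).2.2.2.2) ?_ ?_ ?_ ?_
  · have : ((∑ i ∈ J, (v0 i - u0 i) : ℤ) : ℝ) = ((u1 i0 + v0 i0 - u0 i0 : ℤ) : ℝ) := by
      rw [Int.cast_sum, Finset.sum_congr rfl (fun i hi => (hst i hi).2.2.1), a1]
      simp only [Finset.sum_add_distrib, Finset.sum_sub_distrib]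
      rw [e0, e1, e2, e3]
    exact_mod_cast this
  · have : ((∑ i ∈ J, (v1 i - u1 i) : ℤ) : ℝ) = ((2 * (u2 i0 + v1 i0 - u1 i0) : ℤ) : ℝ) := by
      rw [Int.cast_sum, Finset.sum_congr rfl (fun i hi => (hst i hi).2.2.2.1), Int.cast_mul, a2]
      simp only [Finset.sum_add_distrib, Finset.sum_sub_distrib, ← Finset.mul_sum]
      rw [e1, e2, e3]
      push_cast
      ring
    exact_mod_cast this
  · have : ((∑ i ∈ J, (v2 i - u2 i) : ℤ) : ℝ) = ((3 * (u3 i0 + v2 i0 - u2 i0) : ℤ) : ℝ) := by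
      rw [Int.cast_sum, Finset.sum_congr rfl (fun i hi => (hst i hi).2.2.2.2.1), Int.cast_mul, a3]
      simp only [Finset.sum_add_distrib, Finset.sum_sub_distrib, ← Finset.mul_sum]
      rw [e2, e3]
      push_cast
      ring
    exact_mod_cast this
  · have : ((∑ i ∈ J, (v3 i - u3 i) : ℤ) : ℝ) = ((4 * (u4 i0 + v3 i0 - u3 i0) : ℤ) : ℝ) := by
      rw [Int.cast_sum, Finset.sum_congr rfl (fun i hi => (hst i hi).2.2.2.2.2), Int.cast_mul, a4]
      simp only [← Finset.mul_sum]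
      rw [e3]
      push_cast
      ring
    exact_mod_cast this

/-- [M5] induction on the size of the support. -/
theorem Rep_exists (m : ℕ) : ∀ (J : Finset (Fin n)), J.card = m → ∀ f : (Fin n → Bool) → ℝ,
    IsBoolean f → Deg4 f → Supp f J →
    ∃ c0 c1 c2 c3 c4 : ℤ, InQ c0 c1 c2 c3 c4 ∧ Rep f c0 c1 c2 c3 c4 := by
  induction m with
  | zero =>
    intro J hJ f hf _ hs
    rw [Finset.card_eq_zero] at hJ
    subst hJ
    exact Rep_base f hf hs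
  | succ m ih =>
    intro J hJ f hf hd hs
    have hne : J.Nonempty := by
      rw [← Finset.card_pos]; omega
    refine Rep_ind_step f hd J hne hs ?_
    intro i hi b
    refine ih (J.erase i) ?_ (res f i b) (isBoolean_res f i b hf) (deg4_res f i b hd)
      (supp_res f i b J hs)
    rw [Finset.card_erase_of_mem hi, hJ]; rfl

/-- Boolean functions of degree at most four: the sum of the linear coefficients is at most 7/4. -/
theorem deg4_bound (n : ℕ) (f : (Fin n → Bool) → ℝ) (hf : IsBoolean f) (hd : degree f ≤ 4) :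
    ∑ i, fourier f {i} ≤ 7 / 4 := by
  obtain ⟨c0, c1, c2, c3, c4, hq, hr⟩ := Rep_exists (Finset.univ : Finset (Fin n)).card Finset.univ rfl f hf
    (deg4_of_degree f hd) (fun S hS => absurd (Finset.subset_univ S) hS)
  have hb := InQ_bound c0 c1 c2 c3 c4 hq
  have hb' : (4 * c1 + 4 * c2 + 3 * c3 + 2 * c4 : ℝ) ≤ 7 := by exact_mod_cast hb
  obtain ⟨_, a1, a2, a3, a4⟩ := hr
  rw [← lev_one]
  rw [a1, a2, a3, a4] at hb'
  linarith

/-- the profile of degree four: L + |mean| <= 15/8, and L <= 3/2 for balanced functions. -/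
theorem deg4_profile (n : ℕ) (f : (Fin n → Bool) → ℝ) (hf : IsBoolean f) (hd : degree f ≤ 4) :
    ∑ i, fourier f {i} + |fourier f ∅| ≤ 15 / 8 ∧
      (fourier f ∅ = 0 → ∑ i, fourier f {i} ≤ 3 / 2) := by
  obtain ⟨c0, c1, c2, c3, c4, hq, hr⟩ := Rep_exists (Finset.univ : Finset (Fin n)).card Finset.univ rfl f hf
    (deg4_of_degree f hd) (fun S hS => absurd (Finset.subset_univ S) hS)
  obtain ⟨p1, p2, p3⟩ := InQ_profile c0 c1 c2 c3 c4 hq
  have q1 : ((8 * c1 + 8 * c2 + 6 * c3 + 4 * c4) + (16 * c0 + 8 * c1 + 4 * c2 + 2 * c3 + c4 - 8) : ℝ) ≤ 15 := by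
    exact_mod_cast p1
  have q2 : ((8 * c1 + 8 * c2 + 6 * c3 + 4 * c4) - (16 * c0 + 8 * c1 + 4 * c2 + 2 * c3 + c4 - 8) : ℝ) ≤ 15 := by
    exact_mod_cast p2
  obtain ⟨a0, a1, a2, a3, a4⟩ := hr
  rw [← lev_one, ← lev_zero]
  have eL : (8 * c1 + 8 * c2 + 6 * c3 + 4 * c4 : ℝ) = 8 * lev f 1 := by
    rw [a1, a2, a3, a4]; ring
  have eM : (16 * c0 + 8 * c1 + 4 * c2 + 2 * c3 + c4 - 8 : ℝ) = 8 * lev f 0 := by
    rw [a0, a1, a2, a3, a4]; ring
  rw [eL, eM] at q1 q2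
  constructor
  · rcases abs_cases (lev f 0) with ⟨h, _⟩ | ⟨h, _⟩ <;> rw [h] <;> linarith
  · intro h0
    have h8 : (16 * c0 + 8 * c1 + 4 * c2 + 2 * c3 + c4 : ℤ) = 8 := by
      have : (16 * c0 + 8 * c1 + 4 * c2 + 2 * c3 + c4 : ℝ) = 8 := by
        rw [h0] at eM; linarith
      exact_mod_cast this
    have q3 : (8 * c1 + 8 * c2 + 6 * c3 + 4 * c4 : ℝ) ≤ 12 := by exact_mod_cast p3 h8
    rw [eL] at q3
    linarith

end Vale.Agent.P047.Four
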