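import Vale.Agent.P047.Four.Check

namespace Vale.Agent.P047.Four

theorem chkB_0 : chkB 0 = true := by decide +kernel

theorem chkB_1 : chkB 1 = true := by decide +kernel

theorem chkB_2 : chkB 2 = true := by decide +kernel

theorem chkB_3 : chkB 3 = true := by decide +kernel

end Vale.Agent.P047.Four
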