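import Vale.Agent.P047.Four.Check

namespace Vale.Agent.P047.Four

theorem chkB_4 : chkB 4 = true := by decide +kernel

theorem chkB_5 : chkB 5 = true := by decide +kernel

theorem chkB_6 : chkB 6 = true := by decide +kernel

theorem chkB_7 : chkB 7 = true := by decide +kernel

end Vale.Agent.P047.Four
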