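import Vale.Agent.P047.Four.Check

namespace Vale.Agent.P047.Four

theorem chkB_40 : chkB 40 = true := by decide +kernel

theorem chkB_41 : chkB 41 = true := by decide +kernel

theorem chkB_42 : chkB 42 = true := by decide +kernel

theorem chkB_43 : chkB 43 = true := by decide +kernel

end Vale.Agent.P047.Four
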