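import Vale.Agent.P047.Four.Check

namespace Vale.Agent.P047.Four

theorem chkB_44 : chkB 44 = true := by decide +kernel

theorem chkB_45 : chkB 45 = true := by decide +kernel

theorem chkB_46 : chkB 46 = true := by decide +kernel

theorem chkB_47 : chkB 47 = true := by decide +kernel

end Vale.Agent.P047.Four
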