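import Vale.Agent.P047.Four.Check

namespace Vale.Agent.P047.Four

theorem chkB_8 : chkB 8 = true := by decide +kernel

theorem chkB_9 : chkB 9 = true := by decide +kernel

theorem chkB_10 : chkB 10 = true := by decide +kernel

theorem chkB_11 : chkB 11 = true := by decide +kernel

end Vale.Agent.P047.Four
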