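import Vale.Agent.P047.Four.Check

namespace Vale.Agent.P047.Four

theorem chkB_12 : chkB 12 = true := by decide +kernel

theorem chkB_13 : chkB 13 = true := by decide +kernel

theorem chkB_14 : chkB 14 = true := by decide +kernel

theorem chkB_15 : chkB 15 = true := by decide +kernel

end Vale.Agent.P047.Four
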