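import Vale.Agent.P047.Four.Check

namespace Vale.Agent.P047.Four

theorem chkB_16 : chkB 16 = true := by decide +kernel

theorem chkB_17 : chkB 17 = true := by decide +kernel

theorem chkB_18 : chkB 18 = true := by decide +kernel

theorem chkB_19 : chkB 19 = true := by decide +kernel

end Vale.Agent.P047.Four
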