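import Vale.Agent.P047.Four.Check

namespace Vale.Agent.P047.Four

theorem chkB_20 : chkB 20 = true := by decide +kernel

theorem chkB_21 : chkB 21 = true := by decide +kernel

theorem chkB_22 : chkB 22 = true := by decide +kernel

theorem chkB_23 : chkB 23 = true := by decide +kernel

end Vale.Agent.P047.Four
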