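import Vale.Agent.P047.Four.Check

namespace Vale.Agent.P047.Four

theorem chkB_24 : chkB 24 = true := by decide +kernel

theorem chkB_25 : chkB 25 = true := by decide +kernel

theorem chkB_26 : chkB 26 = true := by decide +kernel

theorem chkB_27 : chkB 27 = true := by decide +kernel

end Vale.Agent.P047.Four
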