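import Vale.Agent.P047.Four.Check

namespace Vale.Agent.P047.Four

theorem chkB_28 : chkB 28 = true := by decide +kernel

theorem chkB_29 : chkB 29 = true := by decide +kernel

theorem chkB_30 : chkB 30 = true := by decide +kernel

theorem chkB_31 : chkB 31 = true := by decide +kernel

end Vale.Agent.P047.Four
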