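import Vale.Agent.P047.Four.Check

namespace Vale.Agent.P047.Four

theorem chkB_32 : chkB 32 = true := by decide +kernel

theorem chkB_33 : chkB 33 = true := by decide +kernel

theorem chkB_34 : chkB 34 = true := by decide +kernel

theorem chkB_35 : chkB 35 = true := by decide +kernel

end Vale.Agent.P047.Four
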