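import Vale.Agent.P047.Four.Check

namespace Vale.Agent.P047.Four

theorem chkB_36 : chkB 36 = true := by decide +kernel

theorem chkB_37 : chkB 37 = true := by decide +kernel

theorem chkB_38 : chkB 38 = true := by decide +kernel

theorem chkB_39 : chkB 39 = true := by decide +kernel

end Vale.Agent.P047.Four
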