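import Vale.Agent.P047.Four.Pair0
import Vale.Agent.P047.Four.Pair1
import Vale.Agent.P047.Four.Pair2
import Vale.Agent.P047.Four.Pair3
import Vale.Agent.P047.Four.Pair4
import Vale.Agent.P047.Four.Pair5
import Vale.Agent.P047.Four.Pair6
import Vale.Agent.P047.Four.Pair7
import Vale.Agent.P047.Four.Pair8
import Vale.Agent.P047.Four.Pair9
import Vale.Agent.P047.Four.Pair10
import Vale.Agent.P047.Four.Pair11

namespace Vale.Agent.P047.Four

/-- all 48 pieces of the pair check -/
theorem chkB_all (k : ℕ) (hk : k < 48) : chkB k = true := by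
  interval_cases k
  · exact chkB_0
  · exact chkB_1
  · exact chkB_2
  · exact chkB_3
  · exact chkB_4
  · exact chkB_5
  · exact chkB_6
  · exact chkB_7
  · exact chkB_8
  · exact chkB_9
  · exact chkB_10
  · exact chkB_11
  · exact chkB_12
  · exact chkB_13
  · exact chkB_14
  · exact chkB_15
  · exact chkB_16
  · exact chkB_17
  · exact chkB_18
  · exact chkB_19
  · exact chkB_20
  · exact chkB_21
  · exact chkB_22
  · exact chkB_23
  · exact chkB_24
  · exact chkB_25
  · exact chkB_26
  · exact chkB_27
  · exact chkB_28
  · exact chkB_29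
  · exact chkB_30
  · exact chkB_31
  · exact chkB_32
  · exact chkB_33
  · exact chkB_34
  · exact chkB_35
  · exact chkB_36
  · exact chkB_37
  · exact chkB_38
  · exact chkB_39
  · exact chkB_40
  · exact chkB_41
  · exact chkB_42
  · exact chkB_43
  · exact chkB_44
  · exact chkB_45
  · exact chkB_46
  · exact chkB_47

end Vale.Agent.P047.Four
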