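import Vale.Agent.P047.Four.Check

/-!
The profile check: on the table, 8 L + |8 mu| <= 15, and 8 L <= 12 when mu = 0, where
8 L = 8 c1 + 8 c2 + 6 c3 + 4 c4  and  8 mu = 16 c0 + 8 c1 + 4 c2 + 2 c3 + c4 - 8.
-/

namespace Vale.Agent.P047.Four

/-- 8 L + 6656 in terms of the digits -/
def nL (x : ℕ) : ℕ := 8 * dg1 x + 8 * dg2 x + 6 * dg3 x + 4 * dg4 x

/-- 8 mu + 7944 in terms of the digits -/
def nM (x : ℕ) : ℕ := 16 * dg0 x + 8 * dg1 x + 4 * dg2 x + 2 * dg3 x + dg4 x

/-- the three inequalities for one key -/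
def profOK (x : ℕ) : Bool :=
  Nat.ble (nL x + nM x) 14615 && Nat.ble (nL x + 1273) (nM x) &&
    (!(Nat.beq (nM x) 7944) || Nat.ble (nL x) 6668)

def chkP : Bool := TQ.toList.all profOK

theorem chkP_true : chkP = true := by decide +kernel

end Vale.Agent.P047.Four
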