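import Vale.Agent.P047.Four.Check
import Vale.Agent.P047.Four.PairAll
import Vale.Agent.P047.Four.Prof

/-!
What the finite checks mean: the set `InQ` of integer vectors (c0, ..., c4) is closed under the step
`core_step`, contains the two constants and satisfies 4 c1 + 4 c2 + 3 c3 + 2 c4 <= 7.
-/

namespace Vale.Agent.P047.Four

open Finset

/-- [K1] induction on the tree; unfold KT.has, KT.toList; split on the two tests; in the last branch
not (x < k) and not (k < x) give x = k  (Nat.blt_eq / simp, omega). -/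
theorem KT.mem_of_has (t : KT) (x : ℕ) (h : t.has x = true) : x ∈ t.toList := by
  induction t with
  | leaf => simp [KT.has] at h
  | node l k r ihl ihr =>
    simp only [KT.has] at h
    simp only [KT.toList, List.mem_append, List.mem_cons]
    split at h
    · exact Or.inl (ihl h)
    · split at h
      · exact Or.inr (Or.inr (ihr h))
      · rename_i h1 h2
        simp only [Nat.blt_eq] at h1 h2
        exact Or.inr (Or.inl (by omega))

/-- [K2] the same for the second kind of tree. -/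
theorem CT.mem_of_find (t : CT) (x : ℕ) (a b c e : ℤ) (h : t.find x = some (a, b, c, e)) :
    (x, a, b, c, e) ∈ t.toList := by
  induction t with
  | leaf => simp [CT.find] at h
  | node l k a' b' c' e' r ihl ihr =>
    simp only [CT.find] at h
    simp only [CT.toList, List.mem_append, List.mem_cons]
    split at h
    · exact Or.inl (ihl h)
    · split at h
      · exact Or.inr (Or.inr (ihr h))
      · rename_i h1 h2
        simp only [Nat.blt_eq] at h1 h2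
        have hx : x = k := by omega
        simp only [Option.some.injEq, Prod.mk.injEq] at h
        obtain ⟨ha, hb, hc, he⟩ := h
        subst hx ha hb hc he
        exact Or.inr (Or.inl rfl)

/-- `z` is the key of the polynomial with coefficients c0 .. c4 -/
def Key (z : ℕ) (c0 c1 c2 c3 c4 : ℤ) : Prop :=
  (dg0 z : ℤ) = c0 + 256 ∧ (dg1 z : ℤ) = c1 + 256 ∧ (dg2 z : ℤ) = c2 + 256 ∧
    (dg3 z : ℤ) = c3 + 256 ∧ (dg4 z : ℤ) = c4 + 256

/-- the polynomial with coefficients c0 .. c4 is in the table -/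
def InQ (c0 c1 c2 c3 c4 : ℤ) : Prop := ∃ x : ℕ, TQ.has x = true ∧ Key x c0 c1 c2 c3 c4

/-- [K3] unfold dg0 .. dg4; omega. -/
theorem key_decomp (x : ℕ) :
    x = dg0 x + 512 * dg1 x + 262144 * dg2 x + 134217728 * dg3 x + 68719476736 * dg4 x := by
  unfold dg0 dg1 dg2 dg3 dg4
  omega

/-- [K4] from `key_decomp` for z and z' and omega. -/
theorem Key_inj (z z' : ℕ) (c0 c1 c2 c3 c4 : ℤ) (h : Key z c0 c1 c2 c3 c4)
    (h' : Key z' c0 c1 c2 c3 c4) : z = z' := by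
  have e := key_decomp z
  have e' := key_decomp z'
  obtain ⟨a0, a1, a2, a3, a4⟩ := h
  obtain ⟨b0, b1, b2, b3, b4⟩ := h'
  omega

/-- [K5] unfold; omega. -/
theorem dg_of (z e0 e1 e2 e3 e4 : ℕ) (h0 : e0 < 512) (h1 : e1 < 512) (h2 : e2 < 512) (h3 : e3 < 512)
    (hz : z = e0 + 512 * e1 + 262144 * e2 + 134217728 * e3 + 68719476736 * e4) :
    dg0 z = e0 ∧ dg1 z = e1 ∧ dg2 z = e2 ∧ dg3 z = e3 ∧ dg4 z = e4 := by
  unfold dg0 dg1 dg2 dg3 dg4
  omega

/-- [K6] from `chkA_true` (List.all_eq_true), `KT.mem_of_has`, List.elem_iff. -/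
theorem okKey_of_has (x : ℕ) (h : TQ.has x = true) : okKey x = true ∧ x ∈ grp (dg4 x) := by
  have h1 := chkA_true
  unfold chkA at h1
  rw [List.all_eq_true] at h1
  have h2 := h1 x (KT.mem_of_has _ _ h)
  rw [Bool.and_eq_true] at h2
  exact ⟨h2.1, List.elem_iff.mp h2.2⟩

/-- [K7] unfold okKey okD; simp with Bool.and_eq_true, Nat.ble_eq. -/
theorem okKey_bounds (x : ℕ) (h : okKey x = true) :
    (194 ≤ dg0 x ∧ dg0 x ≤ 318) ∧ (194 ≤ dg1 x ∧ dg1 x ≤ 318) ∧ (194 ≤ dg2 x ∧ dg2 x ≤ 318) ∧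
      (194 ≤ dg3 x ∧ dg3 x ≤ 318) ∧ (194 ≤ dg4 x ∧ dg4 x ≤ 318) := by
  unfold okKey okD at h
  simp only [Bool.and_eq_true, Nat.ble_eq] at h
  tauto

/-- [K8] `chkB_all (hsh x)` (hsh x < 48 by unfold hsh; omega), List.all_eq_true, `KT.mem_of_has`; then simp. -/
theorem rowOK_of_has (x : ℕ) (h : TQ.has x = true) : rowOK x = true := by
  have hk : hsh x < 48 := by unfold hsh; omega
  have h1 := chkB_all (hsh x) hk
  unfold chkB at h1
  rw [List.all_eq_true] at h1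
  have h2 := h1 x (KT.mem_of_has _ _ h)
  simpa using h2

/-- [K9] `rowOK_of_has x`, and y is in grp (dg4 y) = grp (dg4 x) by `okKey_of_has`. -/
theorem pairOK_of_has (x y : ℕ) (hx : TQ.has x = true) (hy : TQ.has y = true)
    (ht : dg4 x = dg4 y) : pairOK x y = true := by
  have h1 := rowOK_of_has x hx
  unfold rowOK at h1
  rw [List.all_eq_true] at h1
  apply h1 y
  rw [ht]
  exact (okKey_of_has y hy).2

/-- [K10] the key of (1 - p) u + p v.  With the digits a_k of x and b_k of y (`key_decomp`, all in 194 .. 318 by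
`okKey_bounds`, a_4 = b_4):  512 y - 511 x = a_0 + 512 (a_1 + b_0 - a_0) + ... + 512^4 (a_4 + b_3 - a_3), apply `dg_of`
with e_k = a_k + b_(k-1) - a_(k-1) (natural subtraction is harmless: a_k + b_(k-1) >= 388 > 318 >= a_(k-1)), omega. -/
theorem Key_comb (x y : ℕ) (hx : okKey x = true) (hy : okKey y = true)
    (u0 u1 u2 u3 u4 v0 v1 v2 v3 v4 : ℤ) (hu : Key x u0 u1 u2 u3 u4) (hv : Key y v0 v1 v2 v3 v4)
    (ht : u4 = v4) :
    Key (512 * y - 511 * x) u0 (u1 + v0 - u0) (u2 + v1 - u1) (u3 + v2 - u2) (u4 + v3 - u3) := by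
  have ex := key_decomp x
  have ey := key_decomp y
  obtain ⟨⟨xa0, xb0⟩, ⟨xa1, xb1⟩, ⟨xa2, xb2⟩, ⟨xa3, xb3⟩, ⟨xa4, xb4⟩⟩ := okKey_bounds x hx
  obtain ⟨⟨ya0, yb0⟩, ⟨ya1, yb1⟩, ⟨ya2, yb2⟩, ⟨ya3, yb3⟩, ⟨ya4, yb4⟩⟩ := okKey_bounds y hy
  obtain ⟨a0, a1, a2, a3, a4⟩ := hu
  obtain ⟨b0, b1, b2, b3, b4⟩ := hv
  have h44 : dg4 x = dg4 y := by omega
  obtain ⟨c0, c1, c2, c3, c4⟩ := dg_of (512 * y - 511 * x) (dg0 x) (dg1 x + dg0 y - dg0 x)
    (dg2 x + dg1 y - dg1 x) (dg3 x + dg2 y - dg2 x) (dg4 x + dg3 y - dg3 x)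
    (by omega) (by omega) (by omega) (by omega) (by omega)
  refine ⟨?_, ?_, ?_, ?_, ?_⟩ <;> omega

/-- [K11] take x, y from InQ; `pairOK_of_has`, unfold pairOK, Bool.or_eq_true; first case: left with
`Key_comb`; second case: split on TC.find, right, rewrite the digits by hu, hv (dg0 y - dg0 x = v0 - u0 ...). -/
theorem InQ_step (u0 u1 u2 u3 u4 v0 v1 v2 v3 v4 : ℤ) (hu : InQ u0 u1 u2 u3 u4)
    (hv : InQ v0 v1 v2 v3 v4) (ht : u4 = v4) :
    InQ u0 (u1 + v0 - u0) (u2 + v1 - u1) (u3 + v2 - u2) (u4 + v3 - u3) ∨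
      ∃ (z : ℕ) (a b c e : ℤ),
        Key z u0 (u1 + v0 - u0) (u2 + v1 - u1) (u3 + v2 - u2) (u4 + v3 - u3) ∧
        TC.find z = some (a, b, c, e) ∧
        a * (v0 - u0) + b * (v1 - u1) + c * (v2 - u2) + e * (v3 - u3) ≤ 0 := by
  obtain ⟨x, hx, kx⟩ := hu
  obtain ⟨y, hy, ky⟩ := hv
  have h4 : dg4 x = dg4 y := by
    have a := kx.2.2.2.2
    have b := ky.2.2.2.2
    omega
  have hp := pairOK_of_has x y hx hy h4
  have hk := Key_comb x y (okKey_of_has x hx).1 (okKey_of_has y hy).1 u0 u1 u2 u3 u4 v0 v1 v2 v3 v4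
    kx ky ht
  unfold pairOK at hp
  rw [Bool.or_eq_true] at hp
  rcases hp with hp | hp
  · exact Or.inl ⟨_, hp, hk⟩
  · right
    cases hfind : TC.find (512 * y - 511 * x) with
    | none =>
      rw [hfind] at hp
      simp at hp
    | some q =>
      obtain ⟨a, b, c, e⟩ := q
      rw [hfind] at hp
      simp only [decide_eq_true_eq] at hp
      refine ⟨_, a, b, c, e, hk, hfind, ?_⟩
      obtain ⟨x0, x1, x2, x3, _⟩ := kx
      obtain ⟨y0, y1, y2, y3, _⟩ := ky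
      rw [x0, x1, x2, x3, y0, y1, y2, y3] at hp
      have e0 : v0 + 256 - (u0 + 256) = v0 - u0 := by ring
      have e1 : v1 + 256 - (u1 + 256) = v1 - u1 := by ring
      have e2 : v2 + 256 - (u2 + 256) = v2 - u2 := by ring
      have e3 : v3 + 256 - (u3 + 256) = v3 - u3 := by ring
      rw [e0, e1, e2, e3] at hp
      exact hp

/-- [K12] `CT.mem_of_find`, `chkC_true` (List.all_eq_true), unfold certOK, decide_eq_true_eq, rewrite digits by hk. -/
theorem cert_pos (z : ℕ) (a b c e w0 w1 w2 w3 w4 : ℤ) (hk : Key z w0 w1 w2 w3 w4)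
    (hf : TC.find z = some (a, b, c, e)) : 0 < a * w1 + 2 * b * w2 + 3 * c * w3 + 4 * e * w4 := by
  have h1 := chkC_true
  unfold chkC at h1
  rw [List.all_eq_true] at h1
  have h2 := h1 _ (CT.mem_of_find _ _ _ _ _ _ hf)
  unfold certOK at h2
  rw [decide_eq_true_eq] at h2
  obtain ⟨a0, a1, a2, a3, a4⟩ := hk
  simp only [a1, a2, a3, a4] at h2
  simpa using h2

/-- [K13] `chkL_true`, `KT.mem_of_has`, Nat.ble_eq, omega  (3335 = 13 * 256 + 7). -/
theorem InQ_bound (c0 c1 c2 c3 c4 : ℤ) (h : InQ c0 c1 c2 c3 c4) :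
    4 * c1 + 4 * c2 + 3 * c3 + 2 * c4 ≤ 7 := by
  obtain ⟨x, hx, a0, a1, a2, a3, a4⟩ := h
  have h1 := chkL_true
  unfold chkL at h1
  rw [List.all_eq_true] at h1
  have h2 := h1 x (KT.mem_of_has _ _ hx)
  rw [Nat.ble_eq] at h2
  omega

/-- [K17] `chkP_true`, as in `InQ_bound`. -/
theorem InQ_profile (c0 c1 c2 c3 c4 : ℤ) (h : InQ c0 c1 c2 c3 c4) :
    (8 * c1 + 8 * c2 + 6 * c3 + 4 * c4) + (16 * c0 + 8 * c1 + 4 * c2 + 2 * c3 + c4 - 8) ≤ 15 ∧
    (8 * c1 + 8 * c2 + 6 * c3 + 4 * c4) - (16 * c0 + 8 * c1 + 4 * c2 + 2 * c3 + c4 - 8) ≤ 15 ∧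
    (16 * c0 + 8 * c1 + 4 * c2 + 2 * c3 + c4 = 8 → 8 * c1 + 8 * c2 + 6 * c3 + 4 * c4 ≤ 12) := by
  obtain ⟨x, hx, a0, a1, a2, a3, a4⟩ := h
  have h1 := chkP_true
  unfold chkP at h1
  rw [List.all_eq_true] at h1
  have h2 := h1 x (KT.mem_of_has _ _ hx)
  unfold profOK at h2
  rw [Bool.and_eq_true, Bool.and_eq_true, Nat.ble_eq, Nat.ble_eq] at h2
  obtain ⟨⟨h3, h4⟩, h5⟩ := h2
  unfold nL nM at h3 h4
  refine ⟨by omega, by omega, ?_⟩
  intro h6
  have h7 : nM x = 7944 := by unfold nM; omega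
  rw [h7] at h5
  have h8 : Nat.ble (nL x) 6668 = true := by simpa using h5
  rw [Nat.ble_eq] at h8
  unfold nL at h8
  omega

/-- [K14] the key is 17626613022976: membership by decide +kernel, digits by norm_num [Key, dg0, ...] or decide. -/
theorem InQ_zero : InQ 0 0 0 0 0 := by
  refine ⟨17626613022976, by decide +kernel, ?_⟩
  norm_num [Key, dg0, dg1, dg2, dg3, dg4]

/-- [K15] the key is 17626613022977. -/
theorem InQ_one : InQ 1 0 0 0 0 := by
  refine ⟨17626613022977, by decide +kernel, ?_⟩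
  norm_num [Key, dg0, dg1, dg2, dg3, dg4]

/-- [K16] the closure step.  Suppose not InQ w.  For every i in J `InQ_step` (rewritten by h0 .. h4) gives a key z_i of w
and a vector with TC.find z_i = some (a, b, c, e) and a (v0 i - u0 i) + ... <= 0.  All z_i are equal (`Key_inj`), so the
vector is the same for all i.  Summing over J (Finset.sum_nonpos, Finset.sum_add_distrib, Finset.mul_sum) and using s0 .. s3:
a w1 + 2 b w2 + 3 c w3 + 4 e w4 <= 0, against `cert_pos`. -/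
theorem core_step {ι : Type*} (J : Finset ι) (hJ : J.Nonempty) (w0 w1 w2 w3 w4 : ℤ)
    (u0 u1 u2 u3 u4 v0 v1 v2 v3 v4 : ι → ℤ)
    (hu : ∀ i ∈ J, InQ (u0 i) (u1 i) (u2 i) (u3 i) (u4 i))
    (hv : ∀ i ∈ J, InQ (v0 i) (v1 i) (v2 i) (v3 i) (v4 i))
    (ht : ∀ i ∈ J, u4 i = v4 i)
    (h0 : ∀ i ∈ J, w0 = u0 i) (h1 : ∀ i ∈ J, w1 = u1 i + v0 i - u0 i)
    (h2 : ∀ i ∈ J, w2 = u2 i + v1 i - u1 i) (h3 : ∀ i ∈ J, w3 = u3 i + v2 i - u2 i)
    (h4 : ∀ i ∈ J, w4 = u4 i + v3 i - u3 i)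
    (s0 : ∑ i ∈ J, (v0 i - u0 i) = w1) (s1 : ∑ i ∈ J, (v1 i - u1 i) = 2 * w2)
    (s2 : ∑ i ∈ J, (v2 i - u2 i) = 3 * w3) (s3 : ∑ i ∈ J, (v3 i - u3 i) = 4 * w4) :
    InQ w0 w1 w2 w3 w4 := by
  by_contra hn
  have key : ∀ i ∈ J, ∃ (z : ℕ) (a b c e : ℤ), Key z w0 w1 w2 w3 w4 ∧
      TC.find z = some (a, b, c, e) ∧
      a * (v0 i - u0 i) + b * (v1 i - u1 i) + c * (v2 i - u2 i) + e * (v3 i - u3 i) ≤ 0 := by
    intro i hi
    have hs := InQ_step _ _ _ _ _ _ _ _ _ _ (hu i hi) (hv i hi) (ht i hi)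
    rcases hs with hs | ⟨z, a, b, c, e, hk, hf, hle⟩
    · exact absurd (by rw [h1 i hi, h2 i hi, h3 i hi, h4 i hi, h0 i hi]; exact hs) hn
    · refine ⟨z, a, b, c, e, ?_, hf, hle⟩
      rw [h1 i hi, h2 i hi, h3 i hi, h4 i hi, h0 i hi]
      exact hk
  obtain ⟨i0, hi0⟩ := hJ
  obtain ⟨z, a, b, c, e, hk, hf, -⟩ := key i0 hi0
  have all : ∀ i ∈ J,
      a * (v0 i - u0 i) + b * (v1 i - u1 i) + c * (v2 i - u2 i) + e * (v3 i - u3 i) ≤ 0 := by
    intro i hi
    obtain ⟨z', a', b', c', e', hk', hf', hle⟩ := key i hi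
    have hz : z' = z := Key_inj _ _ _ _ _ _ _ hk' hk
    rw [hz, hf] at hf'
    simp only [Option.some.injEq, Prod.mk.injEq] at hf'
    obtain ⟨ha, hb, hc, he⟩ := hf'
    subst ha hb hc he
    exact hle
  have hsum := Finset.sum_nonpos all
  simp only [Finset.sum_add_distrib, ← Finset.mul_sum, s0, s1, s2, s3] at hsum
  have hpos := cert_pos z a b c e w0 w1 w2 w3 w4 hk hf
  nlinarith [hsum, hpos]

end Vale.Agent.P047.Four
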