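import Vale.Agent.P047.Beat.Deg4

/-!
The two extremal examples for the profile of degree four.
-/

namespace Vale.Agent.P047.Four

open Finset Vale.Agent.P047

/-- [T1] the function of `exists_f4`, fun x => (1 - qm x) - qm x  (copy that proof for the first three parts).  Its mean is
1 - 2 * 7/16 = 1/8: `fourier_sub`, `mean_const`, unfold qm, `fourier_finset_sum`, `mean_subcube _ _ (qP_disj j)`,
`qP_compl_card`, Fintype.card_fin; norm_num. -/
theorem exists_tight_sum : ∃ f : (Fin 7 → Bool) → ℝ, IsBoolean f ∧ degree f ≤ 4 ∧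
    ∑ i, fourier f {i} = 7 / 4 ∧ fourier f ∅ = 1 / 8 := by
  refine ⟨fun x => (1 - qm x) - qm x, ?_, ?_, ?_, ?_⟩
  · intro x
    rcases qm_cases x with h | h
    · right; simp only [h]; norm_num
    · left; simp only [h]; norm_num
  · apply degree_le_of_forall
    intro S hS
    have hne : S.Nonempty := by
      rw [← Finset.card_pos]; omega
    rw [fourier_sub (fun x => 1 - qm x) qm, fourier_sub (fun _ => (1 : ℝ)) qm,
      fourier_one_eq_zero S hne, fourier_qm_eq_zero S hS]
    ring
  · show linSum (fun x => (1 - qm x) - qm x) = 7 / 4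
    rw [linSum_sub (fun x => 1 - qm x) qm, linSum_sub (fun _ => (1 : ℝ)) qm, linSum_const,
      linSum_qm]
    norm_num
  · have hm : fourier qm ∅ = 7 / 16 := by
      unfold qm
      rw [fourier_finset_sum]
      have : ∀ j ∈ (univ : Finset (Fin 7)), fourier (subcube {j} (qP j)) ∅ = 1 / 16 := by
        intro j _
        rw [mean_subcube _ _ (qP_disj j), qP_compl_card]
        simp
        norm_num
      rw [Finset.sum_congr rfl this]
      simp
      norm_num
    rw [fourier_sub (fun x => 1 - qm x) qm, fourier_sub (fun _ => (1 : ℝ)) qm, mean_const, hm]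
    norm_num

/-- [T2] Majority on three bits: g = subcube {0,1} {} + subcube {0,2} {1} + subcube {1,2} {0} is 0/1 valued (the three
subcubes are pairwise disjoint: `subcube_mul_eq_zero`, `subcube_cases`, as in `qm_cases`), f = g + g - 1  (or fun x => g x - (1 - g x)).
degree <= 3 by `degree_le_card`.  Mean: `mean_subcube` gives 1/4 + 1/8 + 1/8 = 1/2 for g, so 0 for f.  Linear sum:
`linSum_subcube` gives 2/4 + 1/8 + 1/8 = 3/4 for g, so 3/2 for f  (`linSum_add`, `linSum_sub`, `linSum_const`, `fourier_add`,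
`fourier_sub`, `mean_const`; linSum f is by definition the sum of fourier f {i}). -/
theorem exists_tight_balanced : ∃ f : (Fin 3 → Bool) → ℝ, IsBoolean f ∧ degree f ≤ 4 ∧
    fourier f ∅ = 0 ∧ ∑ i, fourier f {i} = 3 / 2 := by
  obtain ⟨g, hg⟩ : ∃ g : (Fin 3 → Bool) → ℝ, g = fun x =>
      (subcube {0, 1} ∅ x + subcube {0, 2} {1} x) + subcube {1, 2} {0} x := ⟨_, rfl⟩
  have c1 : ((({0, 1} : Finset (Fin 3)) ∪ ∅)ᶜ).card = 1 := by decide
  have c2 : ((({0, 2} : Finset (Fin 3)) ∪ {1})ᶜ).card = 0 := by decide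
  have c3 : ((({1, 2} : Finset (Fin 3)) ∪ {0})ᶜ).card = 0 := by decide
  have d1 : Disjoint ({0, 1} : Finset (Fin 3)) ∅ := by decide
  have d2 : Disjoint ({0, 2} : Finset (Fin 3)) {1} := by decide
  have d3 : Disjoint ({1, 2} : Finset (Fin 3)) {0} := by decide
  have k1 : ({0, 1} : Finset (Fin 3)).card = 2 := by decide
  have k2 : ({0, 2} : Finset (Fin 3)).card = 2 := by decide
  have k3 : ({1, 2} : Finset (Fin 3)).card = 2 := by decide
  have hcases : ∀ x, g x = 1 ∨ g x = 0 := by
    intro x
    rw [hg]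
    unfold subcube
    cases h0 : x 0 <;> cases h1 : x 1 <;> cases h2 : x 2 <;> simp [h0, h1, h2]
  have hmean : fourier g ∅ = 1 / 2 := by
    rw [hg, fourier_add (fun x => subcube {0, 1} ∅ x + subcube {0, 2} {1} x) (subcube {1, 2} {0}),
      fourier_add (subcube {0, 1} ∅) (subcube {0, 2} {1}), mean_subcube _ _ d1,
      mean_subcube _ _ d2, mean_subcube _ _ d3, c1, c2, c3]
    simp
    norm_num
  have hlin : linSum g = 3 / 4 := by
    rw [hg, linSum_add (fun x => subcube {0, 1} ∅ x + subcube {0, 2} {1} x) (subcube {1, 2} {0}),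
      linSum_add (subcube {0, 1} ∅) (subcube {0, 2} {1}), linSum_subcube _ _ d1,
      linSum_subcube _ _ d2, linSum_subcube _ _ d3, c1, c2, c3, k1, k2, k3]
    simp
    norm_num
  refine ⟨fun x => g x - (1 - g x), ?_, ?_, ?_, ?_⟩
  · intro x
    rcases hcases x with h | h
    · left; simp only [h]; norm_num
    · right; simp only [h]; norm_num
  · exact (degree_le_card _).trans (by simp)
  · rw [fourier_sub g (fun x => 1 - g x), fourier_sub (fun _ => (1 : ℝ)) g, mean_const, hmean]
    norm_num
  · show linSum (fun x => g x - (1 - g x)) = 3 / 2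
    rw [linSum_sub g (fun x => 1 - g x), linSum_sub (fun _ => (1 : ℝ)) g, linSum_const, hlin]
    norm_num

end Vale.Agent.P047.Four
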